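import Mathlib

/-!
# P174: systems of equations over groups — basic definitions

A system of `m` equations in `n` unknowns over a group `G` is a family
`w : Fin m → Monoid.Coprod G (FreeGroup (Fin n))`, i.e. `m` elements of the free product
`G * F_n`.
-/

namespace Vale.Agent.Lib.P174

open Monoid

universe u

/-- The exponent-sum homomorphism `G * F_n → ℤ^n` (the target written multiplicatively):
it kills `G` and sends the free generator `x_j` to the `j`-th unit vector. -/
def expSum (G : Type u) [Group G] (n : ℕ) :
    Coprod G (FreeGroup (Fin n)) →* Multiplicative (Fin n → ℤ) :=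
  Coprod.lift 1 (FreeGroup.lift fun j => Multiplicative.ofAdd (Pi.single j (1 : ℤ)))

/-- The exponent-sum matrix of a system, with entries viewed in `ℚ`:
row `i` is the image of `w i` under `expSum`. -/
def expMatrix {G : Type u} [Group G] {m n : ℕ} (w : Fin m → Coprod G (FreeGroup (Fin n))) :
    Matrix (Fin m) (Fin n) ℚ :=
  Matrix.of fun i j => ((Multiplicative.toAdd (expSum G n (w i)) j : ℤ) : ℚ)

/-- The system is nonsingular: its exponent-sum matrix has rank `m` over `ℚ`. -/
def Nonsingular {G : Type u} [Group G] {m n : ℕ} (w : Fin m → Coprod G (FreeGroup (Fin n))) :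
    Prop :=
  (expMatrix w).rank = m

/-- The system is solvable over `G`: the canonical homomorphism
`G → (G * F_n) / ⟨⟨w_1, …, w_m⟩⟩` is injective. -/
def Solvable {G : Type u} [Group G] {m n : ℕ} (w : Fin m → Coprod G (FreeGroup (Fin n))) :
    Prop :=
  Function.Injective fun g : G =>
    (QuotientGroup.mk (Coprod.inl g) :
      Coprod G (FreeGroup (Fin n)) ⧸ Subgroup.normalClosure (Set.range w))

end Vale.Agent.Lib.P174
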