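import Mathlib

/-!
# P174 helper: one step of the tower used to embed a group into a simple group

For a group `G`, let `Om G = G × Bool × List (G × ℤ) × ℤ` and let `G` act on `Om G` by left
multiplication on the first coordinate.  We show: for `g ≠ 1` and any `h`, the permutation
`lam h` of `Om G` lies in the normal closure of `lam g` in `Equiv.Perm (Om G)`.
-/

namespace Vale.Agent.Lib.P174

universe u

open Classical

variable (G : Type u)

/-- The set acted on in one step of the tower. -/
abbrev Om : Type u := G × Bool × List (G × ℤ) × ℤ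

variable {G} [Group G]

/-- left multiplication on the first coordinate -/
def lam (a : G) : Equiv.Perm (Om G) where
  toFun p := (a * p.1, p.2)
  invFun p := (a⁻¹ * p.1, p.2)
  left_inv p := by simp
  right_inv p := by simp

@[simp] lemma lam_apply (a : G) (y : G) (b : Bool) (l : List (G × ℤ)) (n : ℤ) :
    lam a (y, b, l, n) = (a * y, b, l, n) := rfl

@[simp] lemma lam_symm_apply (a : G) (y : G) (b : Bool) (l : List (G × ℤ)) (n : ℤ) :
    (lam a).symm (y, b, l, n) = (a⁻¹ * y, b, l, n) := rfl

/-- `lam` as a group homomorphism -/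
def lamHom : G →* Equiv.Perm (Om G) where
  toFun := lam
  map_one' := by
    apply Equiv.ext
    rintro ⟨y, b, l, n⟩
    simp
  map_mul' a c := by
    apply Equiv.ext
    rintro ⟨y, b, l, n⟩
    simp [mul_assoc]

@[simp] lemma lamHom_apply (a : G) : lamHom a = lam a := rfl

lemma lamHom_injective : Function.Injective (lamHom : G →* Equiv.Perm (Om G)) := by
  intro a c hac
  have h := congrArg (fun e : Equiv.Perm (Om G) => (e (1, false, [], 0)).1) hac
  simpa using h

/-- fibrewise translation of the last coordinate over the points with first coordinate `g` -/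
noncomputable def pm (g : G) : Equiv.Perm (Om G) where
  toFun p := (p.1, p.2.1, p.2.2.1, p.2.2.2 + (if p.1 = g then 1 else 0))
  invFun p := (p.1, p.2.1, p.2.2.1, p.2.2.2 - (if p.1 = g then 1 else 0))
  left_inv p := by simp
  right_inv p := by simp

lemma pm_apply (g y : G) (b : Bool) (l : List (G × ℤ)) (n : ℤ) :
    pm g (y, b, l, n) = (y, b, l, n + (if y = g then 1 else 0)) := rfl

lemma pm_symm_apply (g y : G) (b : Bool) (l : List (G × ℤ)) (n : ℤ) :
    (pm g).symm (y, b, l, n) = (y, b, l, n - (if y = g then 1 else 0)) := rfl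

/-- the wandering permutation: shifts up over first coordinate `1`, down over `g` -/
noncomputable def tau (g : G) : Equiv.Perm (Om G) where
  toFun p := (p.1, p.2.1, p.2.2.1,
    p.2.2.2 + ((if p.1 = 1 then 1 else 0) - (if p.1 = g then 1 else 0)))
  invFun p := (p.1, p.2.1, p.2.2.1,
    p.2.2.2 - ((if p.1 = 1 then 1 else 0) - (if p.1 = g then 1 else 0)))
  left_inv p := by simp
  right_inv p := by simp

lemma tau_apply (g y : G) (b : Bool) (l : List (G × ℤ)) (n : ℤ) :
    tau g (y, b, l, n) =
      (y, b, l, n + ((if y = 1 then 1 else 0) - (if y = g then 1 else 0))) := rfl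

lemma tau_symm_apply (g y : G) (b : Bool) (l : List (G × ℤ)) (n : ℤ) :
    (tau g).symm (y, b, l, n) =
      (y, b, l, n - ((if y = 1 then 1 else 0) - (if y = g then 1 else 0))) := rfl

lemma tau_eq (g : G) : tau g = (lam g)⁻¹ * pm g * lam g * (pm g)⁻¹ := by
  apply Equiv.ext
  rintro ⟨y, b, l, n⟩
  simp only [Equiv.Perm.mul_apply, Equiv.Perm.inv_def, pm_symm_apply, lam_apply, pm_apply,
    lam_symm_apply, tau_apply, inv_mul_cancel_left, mul_eq_left]
  congr 3
  ring

/-- act on the head of a list -/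
def hd (h : G) : List (G × ℤ) → List (G × ℤ)
  | [] => []
  | (x, k) :: s => (h * x, k) :: s

@[simp] lemma hd_nil (h : G) : hd h ([] : List (G × ℤ)) = [] := rfl
@[simp] lemma hd_cons (h x : G) (k : ℤ) (s : List (G × ℤ)) :
    hd h ((x, k) :: s) = (h * x, k) :: s := rfl

@[simp] lemma hd_hd_inv (h : G) (l : List (G × ℤ)) : hd h (hd h⁻¹ l) = l := by
  rcases l with _ | ⟨⟨x, k⟩, s⟩ <;> simp

@[simp] lemma hd_inv_hd (h : G) (l : List (G × ℤ)) : hd h⁻¹ (hd h l) = l := by
  rcases l with _ | ⟨⟨x, k⟩, s⟩ <;> simp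

/-- act on list heads over the points with first coordinate `1`, boolean `!b`
and last coordinate satisfying `P` -/
noncomputable def onList (P : ℤ → Prop) (b : Bool) (h : G) : Equiv.Perm (Om G) where
  toFun p := if p.1 = 1 ∧ p.2.1 = !b ∧ P p.2.2.2 then (p.1, p.2.1, hd h p.2.2.1, p.2.2.2) else p
  invFun p :=
    if p.1 = 1 ∧ p.2.1 = !b ∧ P p.2.2.2 then (p.1, p.2.1, hd h⁻¹ p.2.2.1, p.2.2.2) else p
  left_inv := by
    rintro ⟨y, b', l, n⟩
    by_cases hp : y = 1 ∧ b' = !b ∧ P n <;> simp [hp]
  right_inv := by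
    rintro ⟨y, b', l, n⟩
    by_cases hp : y = 1 ∧ b' = !b ∧ P n <;> simp [hp]

lemma onList_apply_pos (P : ℤ → Prop) (b : Bool) (h : G) (l : List (G × ℤ)) (n : ℤ)
    (hn : P n) : onList P b h (1, !b, l, n) = (1, !b, hd h l, n) := by
  simp [onList, hn]

lemma onList_symm_apply_pos (P : ℤ → Prop) (b : Bool) (h : G) (l : List (G × ℤ)) (n : ℤ)
    (hn : P n) : (onList P b h).symm (1, !b, l, n) = (1, !b, hd h⁻¹ l, n) := by
  simp [onList, Equiv.symm, hn]

lemma onList_apply_neg (P : ℤ → Prop) (b : Bool) (h : G) (y : G) (b' : Bool)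
    (l : List (G × ℤ)) (n : ℤ)
    (hn : ¬ (y = 1 ∧ b' = !b ∧ P n)) : onList P b h (y, b', l, n) = (y, b', l, n) := by
  simp only [onList, Equiv.coe_fn_mk]
  rw [if_neg hn]

lemma onList_symm_apply_neg (P : ℤ → Prop) (b : Bool) (h : G) (y : G) (b' : Bool)
    (l : List (G × ℤ)) (n : ℤ)
    (hn : ¬ (y = 1 ∧ b' = !b ∧ P n)) : (onList P b h).symm (y, b', l, n) = (y, b', l, n) := by
  simp only [onList, Equiv.symm, Equiv.coe_fn_mk]
  rw [if_neg hn]

lemma onList_zero_eq (g : G) (hg : g ≠ 1) (b : Bool) (h : G) :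
    onList (fun n => n = 0) b h =
      onList (fun n => 0 ≤ n) b h * tau g * (onList (fun n => 0 ≤ n) b h)⁻¹ * (tau g)⁻¹ := by
  have hg' : ¬ ((1 : G) = g) := fun e => hg e.symm
  apply Equiv.ext
  rintro ⟨y, b', l, n⟩
  simp only [Equiv.Perm.mul_apply, Equiv.Perm.inv_def, tau_symm_apply]
  by_cases hyb : y = 1 ∧ b' = !b
  · obtain ⟨rfl, rfl⟩ := hyb
    simp only [if_true, if_neg hg', sub_zero]
    rcases lt_trichotomy n 0 with hn | hn | hn
    · rw [onList_apply_neg (fun n => n = 0) b h 1 (!b) l n (by simp; omega),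
        onList_symm_apply_neg (fun n => 0 ≤ n) b h 1 (!b) l (n - 1) (by simp; omega), tau_apply,
        onList_apply_neg (fun n => 0 ≤ n) b h 1 (!b) l _ (by simp [hg']; omega)]
      simp [hg']
    · subst hn
      rw [onList_apply_pos (fun n => n = 0) b h l 0 rfl,
        onList_symm_apply_neg (fun n => 0 ≤ n) b h 1 (!b) l (0 - 1) (by simp), tau_apply]
      simp only [if_true, if_neg hg', sub_zero]
      rw [onList_apply_pos (fun n => 0 ≤ n) b h l _ (by simp)]
      simp
    · rw [onList_apply_neg (fun n => n = 0) b h 1 (!b) l n (by simp; omega),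
        onList_symm_apply_pos (fun n => 0 ≤ n) b h l (n - 1) (by simp; omega), tau_apply]
      simp only [if_true, if_neg hg', sub_zero]
      rw [onList_apply_pos (fun n => 0 ≤ n) b h _ _ (by simp; omega)]
      simp
  · rw [onList_apply_neg (fun n => n = 0) b h y b' l n (fun hh => hyb ⟨hh.1, hh.2.1⟩),
      onList_symm_apply_neg (fun n => 0 ≤ n) b h y b' l _ (fun hh => hyb ⟨hh.1, hh.2.1⟩),
      tau_apply,
      onList_apply_neg (fun n => 0 ≤ n) b h y b' l _ (fun hh => hyb ⟨hh.1, hh.2.1⟩)]
    simp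

/-- the swap involution: moves the half with boolean `b` into list heads over the points
`(1, !b, _, 0)` -/
noncomputable def swFun (b : Bool) : Om G → Om G
  | (y, b', l, n) =>
    if b' = b then (1, !b, (y, n) :: l, 0)
    else if y = 1 ∧ n = 0 then
      (match l with
       | [] => (y, b', [], n)
       | (x, k) :: s => (x, b, s, k))
    else (y, b', l, n)

lemma swFun_pos (b : Bool) (y : G) (l : List (G × ℤ)) (n : ℤ) :
    swFun b (y, b, l, n) = (1, !b, (y, n) :: l, 0) := by
  simp [swFun]

lemma swFun_cons (b : Bool) (x : G) (k : ℤ) (s : List (G × ℤ)) :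
    swFun b ((1 : G), !b, (x, k) :: s, 0) = (x, b, s, k) := by
  simp [swFun]

lemma swFun_nil (b : Bool) :
    swFun b ((1 : G), !b, [], 0) = ((1 : G), !b, [], 0) := by
  simp [swFun]

lemma swFun_neg (b : Bool) (y : G) (l : List (G × ℤ)) (n : ℤ) (hyn : ¬ (y = 1 ∧ n = 0)) :
    swFun b (y, !b, l, n) = (y, !b, l, n) := by
  simp only [swFun]
  rw [if_neg (by simp), if_neg hyn]

lemma swFun_invol (b : Bool) : Function.Involutive (swFun b : Om G → Om G) := by
  rintro ⟨y, b', l, n⟩
  by_cases hb : b' = b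
  · subst hb
    rw [swFun_pos, swFun_cons]
  · have hb' : b' = !b := by
      cases b <;> cases b' <;> simp_all
    subst hb'
    by_cases hyn : y = 1 ∧ n = 0
    · obtain ⟨rfl, rfl⟩ := hyn
      rcases l with _ | ⟨⟨x, k⟩, s⟩
      · rw [swFun_nil, swFun_nil]
      · rw [swFun_cons, swFun_pos]
    · rw [swFun_neg _ _ _ _ hyn, swFun_neg _ _ _ _ hyn]

/-- the swap as a permutation -/
noncomputable def sw (b : Bool) : Equiv.Perm (Om G) := (swFun_invol b).toPerm

lemma sw_apply (b : Bool) (p : Om G) : sw b p = swFun b p := rfl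

lemma sw_inv (b : Bool) : (sw b : Equiv.Perm (Om G))⁻¹ = sw b := by
  apply Equiv.ext
  intro p
  rw [Equiv.Perm.inv_def]
  rfl

/-- left multiplication on the half with boolean `b` -/
noncomputable def lamb (b : Bool) (h : G) : Equiv.Perm (Om G) where
  toFun p := if p.2.1 = b then (h * p.1, p.2) else p
  invFun p := if p.2.1 = b then (h⁻¹ * p.1, p.2) else p
  left_inv := by
    rintro ⟨y, b', l, n⟩
    by_cases hb : b' = b <;> simp [hb]
  right_inv := by
    rintro ⟨y, b', l, n⟩
    by_cases hb : b' = b <;> simp [hb]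

lemma lamb_apply_pos (b : Bool) (h y : G) (l : List (G × ℤ)) (n : ℤ) :
    lamb b h (y, b, l, n) = (h * y, b, l, n) := by
  simp [lamb]

lemma lamb_apply_neg (b : Bool) (h y : G) (l : List (G × ℤ)) (n : ℤ) :
    lamb b h (y, !b, l, n) = (y, !b, l, n) := by
  simp [lamb]

lemma lamb_eq (b : Bool) (h : G) :
    lamb b h = sw b * onList (fun n => n = 0) b h * sw b := by
  apply Equiv.ext
  rintro ⟨y, b', l, n⟩
  simp only [Equiv.Perm.mul_apply, sw_apply]
  by_cases hb : b' = b
  · subst hb
    rw [lamb_apply_pos, swFun_pos, onList_apply_pos (fun n => n = 0) b' h _ 0 rfl, hd_cons,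
      swFun_cons]
  · have hb' : b' = !b := by
      cases b <;> cases b' <;> simp_all
    subst hb'
    rw [lamb_apply_neg]
    by_cases hyn : y = 1 ∧ n = 0
    · obtain ⟨rfl, rfl⟩ := hyn
      rcases l with _ | ⟨⟨x, k⟩, s⟩
      · rw [swFun_nil, onList_apply_pos (fun n => n = 0) b h _ 0 rfl, hd_nil, swFun_nil]
      · rw [swFun_cons,
          onList_apply_neg (fun n => n = 0) b h x b s k (fun hh => by
            have h2 : b = !b := hh.2.1
            revert h2
            cases b <;> decide),
          swFun_pos]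
    · rw [swFun_neg _ _ _ _ hyn,
        onList_apply_neg (fun n => n = 0) b h y (!b) l n (fun hh => hyn ⟨hh.1, hh.2.2⟩),
        swFun_neg _ _ _ _ hyn]

lemma lam_eq (h : G) : lam h = lamb true h * lamb false h := by
  apply Equiv.ext
  rintro ⟨y, b', l, n⟩
  simp only [Equiv.Perm.mul_apply]
  cases b'
  · have h1 := lamb_apply_pos false h y l n
    have h2 := lamb_apply_neg true h (h * y) l n
    simp only [Bool.not_true] at h2
    rw [h1, h2, lam_apply]
  · have h1 := lamb_apply_neg false h y l n
    have h2 := lamb_apply_pos true h y l n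
    simp only [Bool.not_false] at h1
    rw [h1, h2, lam_apply]

/-- **Step lemma.** If `g ≠ 1` then every `lam h` lies in the normal closure of `lam g`
in the full symmetric group on `Om G`. -/
theorem lam_mem_normalClosure (g : G) (hg : g ≠ 1) (h : G) :
    lam h ∈ Subgroup.normalClosure ({lam g} : Set (Equiv.Perm (Om G))) := by
  set N := Subgroup.normalClosure ({lam g} : Set (Equiv.Perm (Om G))) with hN
  have hnormal : N.Normal := Subgroup.normalClosure_normal
  have h0 : lam g ∈ N := Subgroup.subset_normalClosure (Set.mem_singleton _)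
  have htau : tau g ∈ N := by
    rw [tau_eq, mul_assoc, mul_assoc]
    refine N.mul_mem (N.inv_mem h0) ?_
    rw [← mul_assoc]
    exact hnormal.conj_mem _ h0 _
  have hA : ∀ b : Bool, onList (fun n => n = 0) b h ∈ N := by
    intro b
    rw [onList_zero_eq g hg b h]
    exact N.mul_mem (hnormal.conj_mem _ htau _) (N.inv_mem htau)
  have hB : ∀ b : Bool, lamb b h ∈ N := by
    intro b
    rw [lamb_eq]
    have := hnormal.conj_mem _ (hA b) (sw b)
    rwa [sw_inv] at this
  rw [lam_eq]
  exact N.mul_mem (hB true) (hB false)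

end Vale.Agent.Lib.P174
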