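import Mathlib
import Vale.Agent.Lib.P174.Step

/-!
# P174 helper: every group embeds into a simple group (in the same universe)

We iterate `G ↦ Equiv.Perm (Om G)` along `ℕ` and pass to the direct limit.  By the step
lemma `lam_mem_normalClosure`, in the limit every nontrivial element normally generates
everything, so the limit is a simple group containing `G`.
-/

namespace Vale.Agent.Lib.P174

universe u

/-- A bundled group. -/
structure BGrp : Type (u + 1) where
  /-- underlying type -/
  carrier : Type u
  /-- group structure -/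
  grp : Group carrier

/-- Next stage of the tower: the symmetric group on `Om G`. -/
def BGrp.next (P : BGrp.{u}) : BGrp.{u} :=
  letI := P.grp
  ⟨Equiv.Perm (Om P.carrier), inferInstance⟩

/-- The tower of groups. -/
def tower (P : BGrp.{u}) : ℕ → BGrp.{u}
  | 0 => P
  | n + 1 => (tower P n).next

/-- The underlying types of the tower. -/
abbrev TT (P : BGrp.{u}) (n : ℕ) : Type u := (tower P n).carrier

instance instGroupTT (P : BGrp.{u}) (n : ℕ) : Group (TT P n) := (tower P n).grp

/-- The step homomorphism of the tower. -/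
def stepHom (P : BGrp.{u}) (n : ℕ) : TT P n →* TT P (n + 1) :=
  lamHom (G := TT P n)

lemma stepHom_injective (P : BGrp.{u}) (n : ℕ) : Function.Injective (stepHom P n) :=
  lamHom_injective (G := TT P n)

lemma stepHom_mem (P : BGrp.{u}) (n : ℕ) (g h : TT P n) (hg : g ≠ 1) :
    stepHom P n h ∈ Subgroup.normalClosure ({stepHom P n g} : Set (TT P (n + 1))) :=
  lam_mem_normalClosure (G := TT P n) g hg h

/-- The transition homomorphisms of the tower. -/
def trans (P : BGrp.{u}) (i j : ℕ) (h : i ≤ j) : TT P i →* TT P j :=
  Nat.leRecOn h (fun {k} φ => (stepHom P k).comp φ) (MonoidHom.id _)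

lemma trans_self (P : BGrp.{u}) (i : ℕ) : trans P i i le_rfl = MonoidHom.id _ :=
  Nat.leRecOn_self _

lemma trans_succ (P : BGrp.{u}) (i j : ℕ) (h : i ≤ j) :
    trans P i (j + 1) (Nat.le_succ_of_le h) = (stepHom P j).comp (trans P i j h) :=
  Nat.leRecOn_succ h _

lemma trans_trans (P : BGrp.{u}) (i j k : ℕ) (hij : i ≤ j) (hjk : j ≤ k) (x : TT P i) :
    trans P j k hjk (trans P i j hij x) = trans P i k (hij.trans hjk) x := by
  induction k, hjk using Nat.le_induction with
  | base => rw [trans_self]; rfl
  | succ k hjk ih =>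
    rw [trans_succ P j k hjk, trans_succ P i k (hij.trans hjk), MonoidHom.comp_apply,
      MonoidHom.comp_apply, ih]

lemma trans_injective (P : BGrp.{u}) (i j : ℕ) (h : i ≤ j) :
    Function.Injective (trans P i j h) := by
  induction j, h using Nat.le_induction with
  | base => rw [trans_self]; exact Function.injective_id
  | succ k hjk ih =>
    rw [trans_succ P i k hjk, MonoidHom.coe_comp]
    exact (stepHom_injective P k).comp ih

instance instDirectedSystemTT (P : BGrp.{u}) :
    DirectedSystem (TT P) (fun i j h => trans P i j h) where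
  map_self i x := by rw [trans_self]; rfl
  map_map k j i hij hjk x := trans_trans P i j k hij hjk x

/-- The direct limit of the tower. -/
abbrev Lim (P : BGrp.{u}) : Type u := DirectLimit (TT P) (trans P)

/-- The canonical homomorphism from a stage to the limit. -/
def toLim (P : BGrp.{u}) (i : ℕ) : TT P i →* Lim P where
  toFun x := ⟦⟨i, x⟩⟧
  map_one' := (DirectLimit.one_def i).symm
  map_mul' x y := (DirectLimit.mul_def i x y).symm

lemma toLim_injective (P : BGrp.{u}) (i : ℕ) : Function.Injective (toLim P i) :=
  DirectLimit.mk_injective (trans P) (fun i j hij => trans_injective P i j hij) i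

lemma toLim_trans (P : BGrp.{u}) (i j : ℕ) (h : i ≤ j) (x : TT P i) :
    toLim P j (trans P i j h x) = toLim P i x :=
  (DirectLimit.eq_of_le (f := trans P) ⟨i, x⟩ j h).symm

lemma toLim_step (P : BGrp.{u}) (i : ℕ) (x : TT P i) :
    toLim P (i + 1) (stepHom P i x) = toLim P i x := by
  have h := toLim_trans P i (i + 1) (Nat.le_succ i) x
  rw [trans_succ P i i le_rfl, trans_self] at h
  exact h

lemma exists_toLim (P : BGrp.{u}) (z : Lim P) : ∃ i x, z = toLim P i x :=
  DirectLimit.exists_eq_mk (trans P) z

/-- In the limit, every nontrivial element normally generates the whole group. -/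
lemma normalClosure_eq_top (P : BGrp.{u}) (p : Lim P) (hp : p ≠ 1) :
    Subgroup.normalClosure ({p} : Set (Lim P)) = ⊤ := by
  rw [eq_top_iff]
  intro q _
  obtain ⟨i, x, rfl⟩ := exists_toLim P p
  obtain ⟨j, y, rfl⟩ := exists_toLim P q
  set k := max i j with hk
  have hik : i ≤ k := le_max_left i j
  have hjk : j ≤ k := le_max_right i j
  set x' := trans P i k hik x with hx'
  set y' := trans P j k hjk y with hy'
  have hx1 : x' ≠ 1 := by
    intro h1
    apply hp
    rw [← toLim_trans P i k hik x, ← hx', h1, map_one]
  have hmem := stepHom_mem P k x' y' hx1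
  have hle := Subgroup.map_normalClosure_le ({stepHom P k x'} : Set (TT P (k + 1)))
    (toLim P (k + 1))
  have h2 : toLim P (k + 1) (stepHom P k y') ∈
      Subgroup.normalClosure ((toLim P (k + 1)) '' ({stepHom P k x'} : Set (TT P (k + 1)))) :=
    hle (Subgroup.mem_map_of_mem _ hmem)
  rw [Set.image_singleton, toLim_step, toLim_step, hx', hy', toLim_trans, toLim_trans] at h2
  exact h2

lemma nontrivial_Lim (P : BGrp.{u}) : Nontrivial (Lim P) := by
  classical
  let _ := P.grp
  have hne : (Equiv.swap ((1 : P.carrier), false, ([] : List (P.carrier × ℤ)), (0 : ℤ))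
      ((1 : P.carrier), true, [], 0) : Equiv.Perm (Om P.carrier)) ≠ 1 := by
    intro h
    have := congrArg (fun e : Equiv.Perm (Om P.carrier) =>
      (e ((1 : P.carrier), false, [], 0)).2.1) h
    simp at this
  refine ⟨toLim P 1 (Equiv.swap ((1 : P.carrier), false, ([] : List (P.carrier × ℤ)), (0 : ℤ))
      ((1 : P.carrier), true, [], 0) : Equiv.Perm (Om P.carrier)), 1, ?_⟩
  intro h
  rw [← map_one (toLim P 1)] at h
  exact hne (toLim_injective P 1 h)

/-- The limit of the tower is a simple group. -/
lemma isSimpleGroup_Lim (P : BGrp.{u}) : IsSimpleGroup (Lim P) := by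
  have := nontrivial_Lim P
  refine ⟨fun H hH => ?_⟩
  by_cases hbot : H = ⊥
  · exact Or.inl hbot
  · right
    obtain ⟨p, hpH, hp1⟩ := (Subgroup.ne_bot_iff_exists_ne_one.mp hbot |> fun ⟨p, hp⟩ =>
      ⟨(p : Lim P), p.2, fun h => hp (Subtype.ext h)⟩ : ∃ p : Lim P, p ∈ H ∧ p ≠ 1)
    rw [eq_top_iff, ← normalClosure_eq_top P p hp1]
    exact Subgroup.normalClosure_le_normal (Set.singleton_subset_iff.mpr hpH)

/-- **Every group embeds into a simple group of the same universe.** -/
theorem exists_simple_embedding (G : Type u) [Group G] :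
    ∃ (S : Type u) (_ : Group S) (φ : G →* S), Function.Injective φ ∧ IsSimpleGroup S :=
  ⟨Lim ⟨G, inferInstance⟩, inferInstance, toLim ⟨G, inferInstance⟩ 0,
    toLim_injective _ 0, isSimpleGroup_Lim _⟩

end Vale.Agent.Lib.P174
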