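import Mathlib
import Vale.Agent.Lib.P174.Defs
import Vale.Agent.Lib.P174.Simple

/-!
# P174: basic lemmas on systems of equations, and the reduction to simple groups
-/

namespace Vale.Agent.Lib.P174

open Monoid

universe u v

variable {G : Type u} [Group G] {H : Type v} [Group H]

/-- The kernel of `G → (G * F_n)/⟨⟨w⟩⟩`, as a subgroup of `G`. -/
def killed {m n : ℕ} (w : Fin m → Coprod G (FreeGroup (Fin n))) : Subgroup G :=
  (Subgroup.normalClosure (Set.range w)).comap Coprod.inl

instance killed_normal {m n : ℕ} (w : Fin m → Coprod G (FreeGroup (Fin n))) :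
    (killed w).Normal := by
  unfold killed
  infer_instance

lemma mem_killed {m n : ℕ} (w : Fin m → Coprod G (FreeGroup (Fin n))) (g : G) :
    g ∈ killed w ↔ Coprod.inl g ∈ Subgroup.normalClosure (Set.range w) := Iff.rfl

lemma solvable_iff {m n : ℕ} (w : Fin m → Coprod G (FreeGroup (Fin n))) :
    Solvable w ↔ ∀ g : G, Coprod.inl g ∈ Subgroup.normalClosure (Set.range w) → g = 1 := by
  unfold Solvable
  constructor
  · intro hinj g hg
    apply hinj
    show (QuotientGroup.mk (Coprod.inl g) :
        Coprod G (FreeGroup (Fin n)) ⧸ Subgroup.normalClosure (Set.range w)) =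
        QuotientGroup.mk (Coprod.inl 1)
    rw [map_one, QuotientGroup.mk_one, QuotientGroup.eq_one_iff]
    exact hg
  · intro h a b hab
    have hab' : (QuotientGroup.mk (Coprod.inl a) :
        Coprod G (FreeGroup (Fin n)) ⧸ Subgroup.normalClosure (Set.range w)) =
        QuotientGroup.mk (Coprod.inl b) := hab
    rw [QuotientGroup.eq] at hab'
    have h1 : Coprod.inl (a⁻¹ * b) ∈ Subgroup.normalClosure (Set.range w) := by
      rw [map_mul, map_inv]
      exact hab'
    have h2 := h _ h1
    exact (inv_mul_eq_one.mp h2)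

/-- transport of a system along a homomorphism of coefficient groups -/
def mapSys (φ : G →* H) {m n : ℕ} (w : Fin m → Coprod G (FreeGroup (Fin n))) :
    Fin m → Coprod H (FreeGroup (Fin n)) :=
  fun i => Coprod.map φ (MonoidHom.id _) (w i)

lemma expSum_map (φ : G →* H) (n : ℕ) (x : Coprod G (FreeGroup (Fin n))) :
    expSum H n (Coprod.map φ (MonoidHom.id _) x) = expSum G n x := by
  have h : (expSum H n).comp (Coprod.map φ (MonoidHom.id _)) = expSum G n := by
    apply Coprod.hom_ext
    · ext g
      simp [expSum]
    · ext j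
      simp [expSum]
  exact DFunLike.congr_fun h x

lemma expMatrix_mapSys (φ : G →* H) {m n : ℕ} (w : Fin m → Coprod G (FreeGroup (Fin n))) :
    expMatrix (mapSys φ w) = expMatrix w := by
  ext i j
  simp [expMatrix, mapSys, expSum_map]

lemma nonsingular_mapSys (φ : G →* H) {m n : ℕ} (w : Fin m → Coprod G (FreeGroup (Fin n))) :
    Nonsingular (mapSys φ w) ↔ Nonsingular w := by
  unfold Nonsingular
  rw [expMatrix_mapSys]

lemma killed_le_comap (φ : G →* H) {m n : ℕ} (w : Fin m → Coprod G (FreeGroup (Fin n))) :
    killed w ≤ (killed (mapSys φ w)).comap φ := by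
  intro g hg
  rw [mem_killed] at hg
  rw [Subgroup.mem_comap, mem_killed]
  have h1 := Subgroup.map_normalClosure_le (Set.range w) (Coprod.map φ (MonoidHom.id _))
  have h2 : Coprod.map φ (MonoidHom.id (FreeGroup (Fin n))) (Coprod.inl g) ∈
      Subgroup.normalClosure ((Coprod.map φ (MonoidHom.id (FreeGroup (Fin n)))) '' Set.range w) :=
    h1 (Subgroup.mem_map_of_mem _ hg)
  rw [Coprod.map_apply_inl] at h2
  have h3 : (Coprod.map φ (MonoidHom.id (FreeGroup (Fin n)))) '' Set.range w =
      Set.range (mapSys φ w) := by
    ext x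
    simp [mapSys]
  rw [h3] at h2
  exact h2

/-- If a system over `G` is not solvable, then transporting it into a simple overgroup gives
a system whose normal closure contains the whole coefficient group. -/
lemma killed_eq_top_of_simple {S : Type v} [Group S] [IsSimpleGroup S] (φ : G →* S)
    (hφ : Function.Injective φ) {m n : ℕ} (w : Fin m → Coprod G (FreeGroup (Fin n)))
    (hw : ¬ Solvable w) : killed (mapSys φ w) = ⊤ := by
  rw [solvable_iff, not_forall] at hw
  obtain ⟨g, hg'⟩ := hw
  rw [Classical.not_imp] at hg'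
  obtain ⟨hg, hg1⟩ := hg'
  have hmem : φ g ∈ killed (mapSys φ w) := killed_le_comap φ w hg
  rcases IsSimpleGroup.eq_bot_or_eq_top_of_normal (killed (mapSys φ w)) inferInstance with h | h
  · exfalso
    rw [h, Subgroup.mem_bot] at hmem
    apply hg1
    apply hφ
    rw [hmem, map_one]
  · exact h

end Vale.Agent.Lib.P174
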